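import Vale.Agent.P100.Moving

open Filter Topology Set
open scoped InnerProductSpace Laplacian

namespace Vale.Agent.P100

variable {n : ℕ}

lemma source_pow {f g : En n → ℝ} {A p : ℝ}
    (heq : ∀ x, x ≠ 0 → -(Δ f x) = ‖x‖ ^ A * g x ^ p) {θ : En n} (hθ : θ ∈ sph n) (s : ℝ) :
    lap f (pt s θ) = -(Real.exp (A * s) * g (pt s θ) ^ p) := by
  have h := heq _ (pt_ne_zero hθ s)
  rw [laplacian_eq_lap, norm_pt hθ, ← Real.exp_mul, mul_comm s A] at h
  linarith

lemma cyl_src {f g : En n → ℝ} {A p k l : ℝ} (hgp : ∀ x, 0 < g x)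
    (heq : ∀ θ ∈ sph n, ∀ s, lap f (pt s θ) = -(Real.exp (A * s) * g (pt s θ) ^ p))
    {θ : En n} (hθ : θ ∈ sph n) (s : ℝ) :
    cU2 k f s θ + ((n : ℝ) - 2 - 2 * k) * cU1 k f s θ + cT k f s θ
      = k * ((n : ℝ) - 2 - k) * cU k f s θ
        - Real.exp ((2 + A + k - p * l) * s) * cU l g s θ ^ p := by
  simp only [cyl_eq k s hθ, heq θ hθ s, cU]
  rw [Real.mul_rpow (Real.exp_pos _).le (hgp _).le,
    ← Real.exp_mul]
  have : Real.exp ((k + 2) * s) * Real.exp (A * s)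
      = Real.exp ((2 + A + k - p * l) * s) * Real.exp (l * s * p) := by
    rw [← Real.exp_add, ← Real.exp_add]; ring_nf
  linear_combination (-(g (pt s θ) ^ p)) * this

lemma src_neg {f g : En n → ℝ} {A p : ℝ} (hgp : ∀ x, 0 < g x)
    (heq : ∀ θ ∈ sph n, ∀ s, lap f (pt s θ) = -(Real.exp (A * s) * g (pt s θ) ^ p)) :
    ∀ θ ∈ sph n, ∀ s, lap f (pt s θ) < 0 := fun θ hθ s => by
  rw [heq θ hθ s, neg_lt_zero]
  exact mul_pos (Real.exp_pos _) (Real.rpow_pos_of_pos (hgp _) p)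

lemma iterate_absurd (hn : 2 ≤ n) {u v : En n → ℝ} {p q A B : ℝ} (hp : 0 < p) (hq : 0 < q)
    (hu : C2 u) (hv : C2 v) (huc : Continuous u) (hup : ∀ x, 0 < u x) (hvp : ∀ x, 0 < v x)
    (hA : -2 < A) (hB : -2 < B)
    (h1 : ∀ θ ∈ sph n, ∀ s, lap u (pt s θ) = -(Real.exp (A * s) * v (pt s θ) ^ p))
    (h2 : ∀ θ ∈ sph n, ∀ s, lap v (pt s θ) = -(Real.exp (B * s) * u (pt s θ) ^ q))
    {k₀ : ℝ} (hk₀ : (p * q - 1) * k₀ < 2 + A + p * (2 + B)) (hlow : Low u k₀) : False := by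
  set D := 2 + A + p * (2 + B) with hD
  have hDpos : 0 < D := by
    have := mul_pos hp (show 0 < 2 + B by linarith)
    linarith
  set T : ℝ → ℝ := fun k => p * q * k - D with hT
  have hstep : ∀ k, Low u k → Low u (T k) := fun k hk => by
    have h := low_step hn hu hup hp h1 (low_step hn hv hvp hq h2 hk)
    rwa [show p * (q * k - B - 2) - A - 2 = T k by simp only [hT, hD]; ring] at h
  set d := min (D - (p * q - 1) * k₀) D with hd
  have hd0 : 0 < d := lt_min (sub_pos.2 hk₀) hDpos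
  by_cases hneg : ∃ k, k < 0 ∧ Low u k
  · obtain ⟨k, hk, hl⟩ := hneg
    exact no_growth hn hu huc hup (src_neg hvp h1) hk hl
  push Not at hneg
  have key : ∀ m : ℕ, ∃ k, Low u k ∧ k ≤ k₀ - m * d := by
    intro m
    induction m with
    | zero => exact ⟨k₀, hlow, by simp⟩
    | succ m ih =>
      obtain ⟨k, hl, hk⟩ := ih
      refine ⟨T k, hstep k hl, ?_⟩
      have hk0 : 0 ≤ k := le_of_not_gt fun h => hneg k h hl
      have hkk : k ≤ k₀ := hk.trans (by linarith [mul_nonneg m.cast_nonneg hd0.le])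
      have : T k ≤ k - d := by
        simp only [hT]
        rcases le_or_gt 1 (p * q) with h | h
        · have : (p * q - 1) * k ≤ (p * q - 1) * k₀ :=
            mul_le_mul_of_nonneg_left hkk (by linarith)
          linarith [min_le_left (D - (p * q - 1) * k₀) D]
        · have : (p * q - 1) * k ≤ 0 := mul_nonpos_of_nonpos_of_nonneg (by linarith) hk0
          linarith [min_le_right (D - (p * q - 1) * k₀) D]
      push_cast
      linarith
  obtain ⟨m, hm⟩ := exists_nat_gt (k₀ / d)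
  obtain ⟨k, hl, hk⟩ := key m
  have : k₀ < m * d := (div_lt_iff₀ hd0).1 hm
  exact hneg k (by linarith) hl

lemma singular_absurd (hn : 2 ≤ n) {u v : En n → ℝ} {p A : ℝ} (hp : 0 < p) (hu : C2 u)
    (huc : Continuous u) (hvc : Continuous v) (hup : ∀ x, 0 < u x) (hvp : ∀ x, 0 < v x)
    (hA : A ≤ -2)
    (h1 : ∀ θ ∈ sph n, ∀ s, lap u (pt s θ) = -(Real.exp (A * s) * v (pt s θ) ^ p)) : False := by
  obtain ⟨x₀, _, hmin⟩ := (isCompact_closedBall (0 : En n) 1).exists_isMinOn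
    ⟨0, by simp⟩ hvc.continuousOn
  refine no_blowup hn hu huc hup (Real.rpow_pos_of_pos (hvp x₀) p) fun θ hθ s hs => ?_
  rw [h1 θ hθ s, mul_neg, neg_le_neg_iff, ← mul_assoc, ← Real.exp_add]
  have hle : v x₀ ≤ v (pt s θ) := hmin (by simpa [norm_pt hθ] using Real.exp_le_one_iff.2 hs)
  calc v x₀ ^ p ≤ v (pt s θ) ^ p := Real.rpow_le_rpow (hvp _).le hle hp.le
    _ ≤ Real.exp (2 * s + A * s) * v (pt s θ) ^ p :=
      le_mul_of_one_le_left (Real.rpow_pos_of_pos (hvp _) p).le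
        (Real.one_le_exp (by nlinarith))

lemma near_zero_sys (hn : 2 ≤ n) {f g : En n → ℝ} {A p k : ℝ} (hk : 0 < k) (hp : 0 < p)
    (hA : -2 < A) (hf : C2 f) (hfc : Continuous f) (hgc : Continuous g) (hfp : ∀ x, 0 < f x)
    (hgp : ∀ x, 0 < g x)
    (h1 : ∀ θ ∈ sph n, ∀ s, lap f (pt s θ) = -(Real.exp (A * s) * g (pt s θ) ^ p)) :
    ∃ s₀, ∀ θ ∈ sph n, ∀ s ≤ s₀, 0 ≤ cU1 k f s θ := by
  obtain ⟨M, hM, hMb⟩ := le_on_inner hgc hgp 0
  refine near_zero hn hk hf hfc hfp (Real.rpow_pos_of_pos hM p) (show 0 < 2 + A by linarith)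
    fun θ hθ s => ⟨(src_neg hgp h1 θ hθ s).le, fun hs => ?_⟩
  rw [h1 θ hθ s, mul_neg, neg_neg, ← mul_assoc, ← Real.exp_add, mul_comm (M ^ p)]
  rw [show 2 * s + A * s = (2 + A) * s by ring]
  exact mul_le_mul_of_nonneg_left (Real.rpow_le_rpow (hgp _).le (hMb θ hθ s hs) hp.le)
    (Real.exp_pos _).le

lemma src_strict {g : En n → ℝ} {γ p l L : ℝ} (hγ : 0 < γ) (hp : 0 < p)
    (hgp : ∀ x, 0 < g x) (hR : ∀ M ≤ L, Refl l g M) {θ : En n} (hθ : θ ∈ sph n) {s : ℝ}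
    (hs : L < s) :
    Real.exp (γ * (2 * L - s)) * cU l g (2 * L - s) θ ^ p
      < Real.exp (γ * s) * cU l g s θ ^ p := by
  have hpos : ∀ t, 0 < cU l g t θ := fun t => mul_pos (Real.exp_pos _) (hgp _)
  have hle : cU l g (2 * L - s) θ ≤ cU l g s θ := hR L le_rfl θ hθ s hs
  exact mul_lt_mul (Real.exp_lt_exp.2 (mul_lt_mul_of_pos_left (by linarith) hγ))
    (Real.rpow_le_rpow (hpos _).le hle hp.le) (Real.rpow_pos_of_pos (hpos _) p) (Real.exp_pos _).le

/-- Moving spheres: both weighted functions increase along every ray. -/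
lemma monotone_of_moving (hn : 2 ≤ n) {u v : En n → ℝ} {p q A B k l : ℝ} (hp : 0 < p)
    (hq : 0 < q) (hA : -2 < A) (hB : -2 < B) (hu : C2 u) (hv : C2 v) (huc : Continuous u)
    (hvc : Continuous v) (hup : ∀ x, 0 < u x) (hvp : ∀ x, 0 < v x)
    (h1 : ∀ θ ∈ sph n, ∀ s, lap u (pt s θ) = -(Real.exp (A * s) * v (pt s θ) ^ p))
    (h2 : ∀ θ ∈ sph n, ∀ s, lap v (pt s θ) = -(Real.exp (B * s) * u (pt s θ) ^ q))
    (hk : ((n : ℝ) - 2) / 2 < k) (hl : ((n : ℝ) - 2) / 2 < l)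
    (hγ : 0 < 2 + A + k - p * l) (hδ : 0 < 2 + B + l - q * k) :
    ∀ L, Refl k u L ∧ Refl l v L := by
  have hn2 : (2 : ℝ) ≤ n := by exact_mod_cast hn
  have hn0 : 0 < n := by omega
  have hk0 : 0 < k := lt_of_le_of_lt (by linarith) hk
  have hl0 : 0 < l := lt_of_le_of_lt (by linarith) hl
  have hlu : Low u (k + ((n : ℝ) - 2) / 2) :=
    low_outer hn0 hu hup (src_neg hvp h1) (by linarith) (by linarith)
  have hlv : Low v (l + ((n : ℝ) - 2) / 2) :=
    low_outer hn0 hv hvp (src_neg hup h2) (by linarith) (by linarith)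
  let S : Set ℝ := {L | ∀ M ≤ L, Refl k u M ∧ Refl l v M}
  obtain ⟨a, ha⟩ : ∃ a, a ∈ S := by
    obtain ⟨s₁, hs₁⟩ := near_zero_sys hn hk0 hp hA hu huc hvc hup hvp h1
    obtain ⟨s₂, hs₂⟩ := near_zero_sys hn hl0 hq hB hv hvc huc hvp hup h2
    obtain ⟨a₁, ha₁⟩ := start_refl hk0 hu huc hup hlu (by linarith) hs₁
    obtain ⟨a₂, ha₂⟩ := start_refl hl0 hv hvc hvp hlv (by linarith) hs₂
    exact ⟨min a₁ a₂, fun M hM =>
      ⟨ha₁ M (hM.trans (min_le_left _ _)), ha₂ M (hM.trans (min_le_right _ _))⟩⟩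
  by_contra hcon
  push Not at hcon
  obtain ⟨L₁, hL₁⟩ := hcon
  have hbdd : BddAbove S := ⟨L₁, fun L hL => le_of_not_ge fun h => hL₁ (hL L₁ h).1 (hL L₁ h).2⟩
  set Ls := sSup S
  have hbelow : ∀ L < Ls, Refl k u L ∧ Refl l v L := fun L hL => by
    obtain ⟨b, hb, hLb⟩ := exists_lt_of_lt_csSup ⟨a, ha⟩ hL
    exact hb L hLb.le
  have hRu := refl_closed hu fun L hL => (hbelow L hL).1
  have hRv := refl_closed hv fun L hL => (hbelow L hL).2
  have su := strict_refl hn0 hu (show (n : ℝ) - 2 - 2 * k ≤ 0 by linarith)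
    (β := k * ((n : ℝ) - 2 - k))
    (F := fun s θ => Real.exp ((2 + A + k - p * l) * s) * cU l v s θ ^ p)
    (fun θ hθ s => cyl_src hvp h1 hθ s) hRu
    (fun θ hθ s hs => src_strict hγ hp hvp hRv hθ hs)
  have sv := strict_refl hn0 hv (show (n : ℝ) - 2 - 2 * l ≤ 0 by linarith)
    (β := l * ((n : ℝ) - 2 - l))
    (F := fun s θ => Real.exp ((2 + B + l - q * k) * s) * cU k u s θ ^ q)
    (fun θ hθ s => cyl_src hup h2 hθ s) hRv
    (fun θ hθ s hs => src_strict hδ hq hup hRu hθ hs)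
  obtain ⟨Ru, hRu'⟩ := tail_refl hk0 huc hup hlu (by linarith) (Ls + 1)
  obtain ⟨Rv, hRv'⟩ := tail_refl hl0 hvc hvp hlv (by linarith) (Ls + 1)
  obtain ⟨e₁, he₁, hu'⟩ := extend_refl hu hRu su.1 su.2 hRu'
  obtain ⟨e₂, he₂, hv'⟩ := extend_refl hv hRv sv.1 sv.2 hRv'
  have hmem : Ls + min e₁ e₂ ∈ S := fun M hM =>
    ⟨hu' M (hM.trans (by linarith [min_le_left e₁ e₂])),
      hv' M (hM.trans (by linarith [min_le_right e₁ e₂]))⟩
  linarith [le_csSup hbdd hmem, lt_min he₁ he₂]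

lemma low_of_monotone (hn : 0 < n) {u : En n → ℝ} {k : ℝ} (hu : C2 u) (hup : ∀ x, 0 < u x)
    (hR : ∀ L, Refl k u L) : Low u k := by
  intro s₀
  obtain ⟨m, hm, hmb⟩ := min_on_sphere hn hu hup s₀
  refine ⟨m * Real.exp (k * s₀), by positivity, fun θ hθ s hs => ?_⟩
  have h : cU k u s₀ θ ≤ cU k u s θ := by
    rcases hs.lt_or_eq with h | rfl
    · exact refl_of_mono (Ls := s) (fun L _ => hR L) hθ h le_rfl
    · exact le_rfl
  have h2 : m * Real.exp (k * s₀) ≤ Real.exp (k * s) * u (pt s θ) :=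
    le_trans (by rw [mul_comm]; exact mul_le_mul_of_nonneg_left (hmb θ hθ) (Real.exp_pos _).le) h
  have := mul_le_mul_of_nonneg_left h2 (Real.exp_pos (-k * s)).le
  rw [← mul_assoc (Real.exp (-k * s)) (Real.exp (k * s)), ← Real.exp_add,
    show -k * s + k * s = 0 by ring, Real.exp_zero, one_mul] at this
  linarith

lemma exists_weights {p q A B h : ℝ} (hp : 0 < p) (hh : 0 ≤ h) (hA : -2 < A) (hB : -2 < B)
    (ha : (p * q - 1) * h < 2 + A + p * (2 + B)) (hb : (p * q - 1) * h < 2 + B + q * (2 + A)) :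
    ∃ k l, h < k ∧ h < l ∧ 0 < 2 + A + k - p * l ∧ 0 < 2 + B + l - q * k := by
  set D := 2 + A + p * (2 + B) with hD
  have hD0 : 0 < D := by
    have := mul_pos hp (show 0 < 2 + B by linarith)
    linarith
  set k₁ := max h (p * h - 2 - A)
  obtain ⟨k, hk1, hk2⟩ : ∃ k, k₁ < k ∧ (p * q - 1) * k < D := by
    rcases le_or_gt (p * q) 1 with hle | hlt
    · refine ⟨k₁ + 1, lt_add_one _, lt_of_le_of_lt (mul_nonpos_of_nonpos_of_nonneg (by linarith) ?_) hD0⟩
      linarith [le_max_left h (p * h - 2 - A)]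
    · have h1 : k₁ < D / (p * q - 1) := by
        refine max_lt ?_ ?_
        · rw [lt_div_iff₀ (by linarith)]; linarith
        · rw [lt_div_iff₀ (by linarith)]
          have := mul_lt_mul_of_pos_left hb hp
          simp only [hD]; nlinarith
      refine ⟨(k₁ + D / (p * q - 1)) / 2, by linarith, ?_⟩
      have h2 : (k₁ + D / (p * q - 1)) / 2 < D / (p * q - 1) := by linarith
      have := (lt_div_iff₀ (show 0 < p * q - 1 by linarith)).1 h2
      linarith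
  have hkh : h < k := lt_of_le_of_lt (le_max_left _ _) hk1
  have hkp : p * h - 2 - A < k := lt_of_le_of_lt (le_max_right _ _) hk1
  have hlo : max h (q * k - 2 - B) < (2 + A + k) / p := by
    refine max_lt ?_ ?_ <;> rw [lt_div_iff₀ hp]
    · linarith
    · linarith
  refine ⟨k, (max h (q * k - 2 - B) + (2 + A + k) / p) / 2, hkh, ?_, ?_, ?_⟩
  · linarith [le_max_left h (q * k - 2 - B)]
  · have : (max h (q * k - 2 - B) + (2 + A + k) / p) / 2 < (2 + A + k) / p := by linarith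
    have := (lt_div_iff₀ hp).1 this
    linarith
  · linarith [le_max_right h (q * k - 2 - B)]

end Vale.Agent.P100

namespace Vale.Agent.Results.P100.LiouvilleRegion

open Vale.Agent.P100

/-- No positive entire solution in the listed parameter region. -/
theorem result (n : ℕ) (hn : 2 ≤ n) (p q A B : ℝ) (hp : 0 < p) (hq : 0 < q)
    (hpar : n = 2 ∨ A ≤ -2 ∨ B ≤ -2 ∨ p * q ≤ 1 ∨
      ((n : ℝ) - 2) * (p * q - 1) < 2 + A + p * (2 + B) ∨
      ((n : ℝ) - 2) * (p * q - 1) < 2 + B + q * (2 + A) ∨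
      (((n : ℝ) - 2) / 2 * (p * q - 1) < 2 + A + p * (2 + B) ∧
        ((n : ℝ) - 2) / 2 * (p * q - 1) < 2 + B + q * (2 + A)) ∨
      (p = q ∧ A = B ∧ (n : ℝ) - 2 < ((n : ℝ) + A) / (p + 1) + ((n : ℝ) + B) / (q + 1))) :
    ¬ ∃ u v : EuclideanSpace ℝ (Fin n) → ℝ,
      ContDiffOn ℝ 2 u {0}ᶜ ∧ ContDiffOn ℝ 2 v {0}ᶜ ∧ Continuous u ∧ Continuous v ∧
      (∀ x, 0 < u x) ∧ (∀ x, 0 < v x) ∧
      ∀ x, x ≠ 0 → -(Δ u x) = ‖x‖ ^ A * v x ^ p ∧ -(Δ v x) = ‖x‖ ^ B * u x ^ q := by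
  rintro ⟨u, v, hu, hv, huc, hvc, hup, hvp, heq⟩
  have h1 : ∀ θ ∈ sph n, ∀ s, lap u (pt s θ) = -(Real.exp (A * s) * v (pt s θ) ^ p) :=
    fun θ hθ s => source_pow (fun x hx => (heq x hx).1) hθ s
  have h2 : ∀ θ ∈ sph n, ∀ s, lap v (pt s θ) = -(Real.exp (B * s) * u (pt s θ) ^ q) :=
    fun θ hθ s => source_pow (fun x hx => (heq x hx).2) hθ s
  rcases le_or_gt A (-2) with hA | hA
  · exact singular_absurd hn hp hu huc hvc hup hvp hA h1
  rcases le_or_gt B (-2) with hB | hB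
  · exact singular_absurd hn hq hv hvc huc hvp hup hB h2
  have hn2 : (2 : ℝ) ≤ n := by exact_mod_cast hn
  set h := ((n : ℝ) - 2) / 2 with hhd
  have hh : 0 ≤ h := by rw [hhd]; linarith
  have hDA : 0 < 2 + A + p * (2 + B) := by
    have := mul_pos hp (show 0 < 2 + B by linarith)
    linarith
  have hDB : 0 < 2 + B + q * (2 + A) := by
    have := mul_pos hq (show 0 < 2 + A by linarith)
    linarith
  have moving : (p * q - 1) * h < 2 + A + p * (2 + B) →
      (p * q - 1) * h < 2 + B + q * (2 + A) → False := by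
    intro ha hb
    obtain ⟨k, l, hk, hl, hγ, hδ⟩ := exists_weights hp hh hA hB ha hb
    have hmono := monotone_of_moving hn hp hq hA hB hu hv huc hvc hup hvp h1 h2 hk hl hγ hδ
    refine iterate_absurd hn hp hq hu hv huc hup hvp hA hB h1 h2 ?_
      (low_of_monotone (by omega) hu hup fun L => (hmono L).1)
    have := mul_lt_mul_of_pos_left hδ hp
    linarith
  have outer : ∀ {f g : En n → ℝ} {a b P Q : ℝ}, 0 < P → 0 < Q → C2 f → C2 g → Continuous f →
      (∀ x, 0 < f x) → (∀ x, 0 < g x) → -2 < a → -2 < b →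
      (∀ θ ∈ sph n, ∀ s, lap f (pt s θ) = -(Real.exp (a * s) * g (pt s θ) ^ P)) →
      (∀ θ ∈ sph n, ∀ s, lap g (pt s θ) = -(Real.exp (b * s) * f (pt s θ) ^ Q)) →
      ((n : ℝ) - 2) * (P * Q - 1) < 2 + a + P * (2 + b) → False := by
    intro f g a b P Q hP hQ hf hg hfc hfp hgp ha hb e1 e2 hlt
    set r := (2 + a + P * (2 + b) - ((n : ℝ) - 2) * (P * Q - 1)) / (|P * Q - 1| + 1) with hr
    have hr0 : 0 < r := div_pos (sub_pos.2 hlt) (by positivity)
    refine iterate_absurd hn hP hQ hf hg hfc hfp hgp ha hb e1 e2 (k₀ := (n : ℝ) - 2 + r) ?_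
      (low_outer (by omega) hf hfp (src_neg hgp e1) (by linarith) (by linarith))
    have : r * (|P * Q - 1| + 1) = 2 + a + P * (2 + b) - ((n : ℝ) - 2) * (P * Q - 1) :=
      div_mul_cancel₀ _ (by positivity)
    nlinarith [le_abs_self (P * Q - 1)]
  rcases hpar with h0 | h0 | h0 | h0 | h0 | h0 | h0 | h0
  · refine moving ?_ ?_ <;> simp [hhd, h0] <;> linarith
  · linarith
  · linarith
  · have : (p * q - 1) * h ≤ 0 := mul_nonpos_of_nonpos_of_nonneg (by linarith) hh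
    exact moving (by linarith) (by linarith)
  · exact outer hp hq hu hv huc hup hvp hA hB h1 h2 h0
  · exact outer hq hp hv hu hvc hvp hup hB hA h2 h1 (by rwa [mul_comm q p])
  · exact moving (by linarith [h0.1]) (by linarith [h0.2])
  · obtain ⟨rfl, rfl, hs⟩ := h0
    rw [← add_div, lt_div_iff₀ (by linarith)] at hs
    have hs' : h * (p - 1) < 2 + A := by rw [hhd]; linarith
    have : (p * p - 1) * h < 2 + A + p * (2 + A) := by
      nlinarith
    exact moving this this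

end Vale.Agent.Results.P100.LiouvilleRegion
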