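import Vale.Agent.P100.Feedback.Main
import Vale.Agent.Results.P100.LiouvilleRegion

open Filter Topology Set
open scoped InnerProductSpace Laplacian

namespace Vale.Agent.Results.P100.FeedbackRange

open Vale.Agent.P100

/-- The Hénon–Lane–Emden statement for `n = 3`, for `n = 4` with `A + B ≤ 0`, and in the range
`(n - 3) (p q - 1) < 2 (max p q + 1)` of every dimension, without any boundedness assumption. -/
theorem result (n : ℕ) (hn : 3 ≤ n) (p q A B : ℝ) (hp : 0 < p) (hq : 0 < q)
    (hsub : (n : ℝ) - 2 < ((n : ℝ) + A) / (p + 1) + ((n : ℝ) + B) / (q + 1))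
    (hrange : n = 3 ∨ (n = 4 ∧ A + B ≤ 0) ∨
      ((n : ℝ) - 3) * (p * q - 1) < 2 * (max p q + 1)) :
    ¬ ∃ u v : EuclideanSpace ℝ (Fin n) → ℝ,
      ContDiffOn ℝ 2 u {0}ᶜ ∧ ContDiffOn ℝ 2 v {0}ᶜ ∧ Continuous u ∧ Continuous v ∧
      (∀ x, 0 < u x) ∧ (∀ x, 0 < v x) ∧
      ∀ x, x ≠ 0 → -(Δ u x) = ‖x‖ ^ A * v x ^ p ∧ -(Δ v x) = ‖x‖ ^ B * u x ^ q := by
  intro hex
  rcases le_or_gt A (-2) with hA | hA
  · exact LiouvilleRegion.result n (by omega) p q A B hp hq (Or.inr (Or.inl hA)) hex
  rcases le_or_gt B (-2) with hB | hB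
  · exact LiouvilleRegion.result n (by omega) p q A B hp hq (Or.inr (Or.inr (Or.inl hB))) hex
  rcases le_or_gt (p * q) 1 with hpq | hpq
  · exact LiouvilleRegion.result n (by omega) p q A B hp hq
      (Or.inr (Or.inr (Or.inr (Or.inl hpq)))) hex
  have hexp : ((n : ℝ) - 3) * (p * q - 1) < 2 * (max p q + 1) := by
    rcases hrange with rfl | ⟨rfl, hAB⟩ | h
    · have : 0 < max p q := hp.trans_le (le_max_left _ _)
      norm_num
      linarith
    · rw [div_add_div _ _ (by linarith) (by linarith), lt_div_iff₀ (by positivity)] at hsub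
      push_cast at hsub ⊢
      have hm : 0 < max p q + 1 := by linarith [le_max_left p q]
      have h1 := mul_le_mul_of_nonneg_left (show q + 1 ≤ max p q + 1 by linarith [le_max_right p q])
        (show 0 ≤ 2 + A by linarith)
      have h2 := mul_le_mul_of_nonneg_left (show p + 1 ≤ max p q + 1 by linarith [le_max_left p q])
        (show 0 ≤ 2 + B by linarith)
      have h3 := mul_le_mul_of_nonneg_right (show 4 + A + B ≤ 4 by linarith) hm.le
      nlinarith
    · exact h
  obtain ⟨u, v, hu, hv, huc, hvc, hup, hvp, heq⟩ := hex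
  have hs : Feedback.Sol p q A B u v :=
    ⟨hu, hv, huc, hvc, hup, hvp,
      fun x hx => by rw [← laplacian_eq_lap]; linarith [(heq x hx).1],
      fun x hx => by rw [← laplacian_eq_lap]; linarith [(heq x hx).2]⟩
  rcases le_total q p with h | h
  · rw [max_eq_left h] at hexp
    exact Feedback.no_sol hn hA hB hq h hpq hsub hexp hs
  · rw [max_eq_right h, mul_comm p q] at hexp
    exact Feedback.no_sol hn hB hA hp h (by linarith) (by linarith) hexp hs.swap

end Vale.Agent.Results.P100.FeedbackRange
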