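import Vale.Agent.P100.Fourth.Main

open Filter Topology Set
open scoped InnerProductSpace Laplacian

namespace Vale.Agent.Results.P100.LinearExponent

open Vale.Agent.P100

/-- Subcritical parameters with `p = 1` or `q = 1` admit no positive entire solution. -/
theorem result (n : ℕ) (hn : 2 ≤ n) (p q A B : ℝ) (hp : 0 < p) (hq : 0 < q)
    (hone : p = 1 ∨ q = 1)
    (hsub : (n : ℝ) - 2 < ((n : ℝ) + A) / (p + 1) + ((n : ℝ) + B) / (q + 1)) :
    ¬ ∃ u v : EuclideanSpace ℝ (Fin n) → ℝ,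
      ContDiffOn ℝ 2 u {0}ᶜ ∧ ContDiffOn ℝ 2 v {0}ᶜ ∧ Continuous u ∧ Continuous v ∧
      (∀ x, 0 < u x) ∧ (∀ x, 0 < v x) ∧
      ∀ x, x ≠ 0 → -(Δ u x) = ‖x‖ ^ A * v x ^ p ∧ -(Δ v x) = ‖x‖ ^ B * u x ^ q := by
  rcases hone with rfl | rfl
  · rintro ⟨u, v, hu, hv, huc, hvc, hup, hvp, heq⟩
    exact Fourth.no_solution_one hn hq (by linarith)
      ⟨v, u, hv, hu, hvc, huc, hvp, hup, fun x hx => ⟨(heq x hx).2, (heq x hx).1⟩⟩
  · exact Fourth.no_solution_one hn hp hsub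

end Vale.Agent.Results.P100.LinearExponent
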